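import Vale.Agent.P032X.H642.Run
import Vale.Agent.P032X.S5.H843.Core7

/-!
# P032: a two-pair point and the far colours of a point of its circle

`far_one`: `z` with the exact pairs `ab`, `cd`, `v` on its circle: not both `a` and `b` have pure
points outside the disc about `z` arbitrarily near `v`.
`run_pair`: (642's run lemma) a point with at least four colours inside a run of a colour `e` not
carried by `z` does not carry both colours of an exact pair of `z`.
-/

open Set Filter Topology Metric

noncomputable section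

namespace Vale.Agent.P032.H361

open Vale.Agent.P032.Six Vale.Agent.P032.H642

variable {U : Fin 6 → Set ℂ} {T : ℂ → Set (Fin 6)} {z v : ℂ} {a b c d e f : Fin 6}

/-- two unit vectors which are not parallel -/
theorem cross_ne {p q : ℂ} (hp : ‖p‖ = 1) (hq : ‖q‖ = 1) (h1 : p ≠ q) (h2 : p ≠ -q) :
    p.re * q.im - p.im * q.re ≠ 0 := by
  intro h0
  have hp2 : p.re ^ 2 + p.im ^ 2 = 1 := by
    have := Complex.sq_norm p
    rw [hp, Complex.normSq_apply] at this
    nlinarith
  have hq2 : q.re ^ 2 + q.im ^ 2 = 1 := by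
    have := Complex.sq_norm q
    rw [hq, Complex.normSq_apply] at this
    nlinarith
  set D := p.re * q.re + p.im * q.im with hD
  have hDD : D ^ 2 = 1 := by
    have h3 : D ^ 2 + (p.re * q.im - p.im * q.re) ^ 2 = (p.re ^ 2 + p.im ^ 2) * (q.re ^ 2 + q.im ^ 2) := by
      rw [hD]; ring
    rw [h0, hp2, hq2] at h3
    nlinarith
  have e1 : p.re = D * q.re := by
    have h3 : p.re * (q.re ^ 2 + q.im ^ 2) - D * q.re = q.im * (p.re * q.im - p.im * q.re) := by
      rw [hD]; ring
    rw [hq2, h0] at h3
    linarith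
  have e2 : p.im = D * q.im := by
    have h3 : p.im * (q.re ^ 2 + q.im ^ 2) - D * q.im = -q.re * (p.re * q.im - p.im * q.re) := by
      rw [hD]; ring
    rw [hq2, h0] at h3
    linarith
  have hDs : D = 1 ∨ D = -1 := by
    have h3 : (D - 1) * (D + 1) = 0 := by nlinarith
    rcases mul_eq_zero.1 h3 with h4 | h4
    · exact Or.inl (by linarith)
    · exact Or.inr (by linarith)
  rcases hDs with h3 | h3
  · rw [h3] at e1 e2
    exact h1 (Complex.ext (by linarith) (by linarith))
  · rw [h3] at e1 e2
    exact h2 (Complex.ext (by simp; linarith) (by simp; linarith))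

/-- a ray of `U i` at `z` towards the side of `v`, and pure points of `i` outside the disc near `v` -/
theorem far_ray (h : Irr U T) {i : Fin 6} {u : ℂ} (hv : dist v z = 1) (hu : ‖u‖ = 1)
    (hR : Ray (U i) z u) (hm : 0 < u.re * (v - z).re + u.im * (v - z).im)
    (hf : ∃ᶠ w in 𝓝 v, T w = {i} ∧ 1 < dist w z) : False := by
  set m := u.re * (v - z).re + u.im * (v - z).im with hmdef
  obtain ⟨ε, hε, hball⟩ := mem_nhdsGT_iff_exists_Ioo_subset.1 hR
  have hε0 : (0 : ℝ) < ε := hε
  set r0 := min (ε / 2) m with hr0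
  have h0 : 0 < r0 := lt_min (by linarith) hm
  have h1 : r0 < ε := lt_of_le_of_lt (min_le_left _ _) (by linarith)
  have h2 : r0 ≤ m := min_le_right _ _
  have hu2 : u.re ^ 2 + u.im ^ 2 = 1 := by
    have := Complex.sq_norm u
    rw [hu, Complex.normSq_apply] at this
    nlinarith
  have hv2 : (v - z).re ^ 2 + (v - z).im ^ 2 = 1 := by
    have := Complex.sq_norm (v - z)
    rw [← dist_eq_norm, hv, Complex.normSq_apply] at this
    nlinarith
  -- the point `z + r0 u` is inside the disc about `v`
  have h3 : dist (z + r0 * u) v < 1 := by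
    have h4 : dist (z + r0 * u) v ^ 2 = r0 ^ 2 - 2 * r0 * m + 1 := by
      rw [dist_eq_norm, Complex.sq_norm, Complex.normSq_apply]
      have e1 : (z + r0 * u - v).re = r0 * u.re - (v - z).re := by simp; ring
      have e2 : (z + r0 * u - v).im = r0 * u.im - (v - z).im := by simp; ring
      rw [e1, e2, hmdef]
      have : (r0 * u.re - (v - z).re) * (r0 * u.re - (v - z).re) +
          (r0 * u.im - (v - z).im) * (r0 * u.im - (v - z).im) =
          r0 ^ 2 * (u.re ^ 2 + u.im ^ 2) - 2 * r0 * (u.re * (v - z).re + u.im * (v - z).im) +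
            ((v - z).re ^ 2 + (v - z).im ^ 2) := by ring
      rw [this, hu2, hv2]; ring
    have h5 : dist (z + r0 * u) v ^ 2 < 1 := by rw [h4]; nlinarith
    nlinarith [dist_nonneg (x := z + r0 * u) (y := v)]
  have h4 : ∀ᶠ w in 𝓝 v, dist (z + r0 * u) w < 1 := by
    have : ContinuousAt (fun w : ℂ => dist (z + r0 * u) w) v := by fun_prop
    exact this.eventually (gt_mem_nhds h3)
  obtain ⟨w, ⟨hw, hwz⟩, hw1⟩ := (hf.and_eventually h4).exists
  -- intermediate value
  have hc : ContinuousOn (fun r : ℝ => dist (z + r * u) w) (Icc 0 r0) := by fun_prop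
  have h5 : (1 : ℝ) ∈ Icc ((fun r : ℝ => dist (z + r * u) w) r0)
      ((fun r : ℝ => dist (z + r * u) w) 0) := by
    refine ⟨hw1.le, ?_⟩
    simp only [Complex.ofReal_zero, zero_mul, add_zero]
    rw [dist_comm]; exact hwz.le
  obtain ⟨r, hr, hr1⟩ := intermediate_value_Icc' h0.le hc h5
  have hr2 : r ≠ 0 := by
    rintro rfl
    simp only [Complex.ofReal_zero, zero_mul, add_zero] at hr1
    rw [dist_comm] at hr1
    linarith
  have hr3 : z + r * u ∈ U i :=
    hball ⟨lt_of_le_of_ne hr.1 (Ne.symm hr2), lt_of_le_of_lt hr.2 h1⟩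
  have hi : i ∈ T w := by rw [hw]; exact mem_singleton i
  exact h.mx.free i _ hr3 w (h.sub w hi) hr1

/-- **at most one colour of an exact pair is far** -/
theorem far_one (h : Irr U T) (hz : DPt T z a b c d) (hv : dist v z = 1)
    (ha : ∃ᶠ w in 𝓝 v, T w = {a} ∧ 1 < dist w z) (hb : ∃ᶠ w in 𝓝 v, T w = {b} ∧ 1 < dist w z) :
    False := by
  obtain ⟨g0, hg0⟩ := hz.arc2
  obtain ⟨g, hg, hgv, hgv2⟩ := hg0.exists_off_line (y := v)
  have hgn : ‖g - z‖ = 1 := by rw [← dist_eq_norm]; exact hg.1
  have hvn : ‖v - z‖ = 1 := by rw [← dist_eq_norm]; exact hv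
  have hcr := cross_ne hgn hvn (fun hcon => hgv (by linear_combination hcon))
    (fun hcon => hgv2 (by linear_combination hcon))
  have key : ∀ σ : ℝ, (σ = 1 ∨ σ = -1) →
      0 < σ * ((g - z).re * (v - z).im - (g - z).im * (v - z).re) → False := by
    intro σ hσ hpos
    have hu : ‖(σ : ℂ) * (Complex.I * (g - z))‖ = 1 := by
      rw [norm_mul, norm_mul, hgn, Complex.norm_I, Complex.norm_real]
      rcases hσ with rfl | rfl <;> simp
    have e1 : ((σ : ℂ) * (Complex.I * (g - z))).re = -(σ * (g - z).im) := by simp; ring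
    have e2 : ((σ : ℂ) * (Complex.I * (g - z))).im = σ * (g - z).re := by simp
    have hm : 0 < ((σ : ℂ) * (Complex.I * (g - z))).re * (v - z).re +
        ((σ : ℂ) * (Complex.I * (g - z))).im * (v - z).im := by
      rw [e1, e2]
      nlinarith
    rcases h.d0_one hz hg hσ rfl with h1 | h1
    · exact far_ray h hv hu h1 hm ha
    · exact far_ray h hv hu h1 hm hb
  rcases lt_or_gt_of_ne hcr with h1 | h1
  · exact key (-1) (Or.inr rfl) (by nlinarith)
  · exact key 1 (Or.inl rfl) (by nlinarith)

/-- **inside a run of a missing colour no exact pair of the centre is carried.** -/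
theorem run_pair (h : Irr U T) (hmn : Mn U T) (hz : DPt T z a b c d) (hv : dist v z = 1)
    (h4 : 4 ≤ (T v).ncard) (he : e ∉ Pal U z) (hJ : ∀ᶠ q in 𝓝[sphere z 1] v, e ∈ T q) :
    ¬ ({a, b} : Set (Fin 6)) ⊆ T v := by
  intro hab
  have hez : e ∉ T z := fun hcon => he (h.sub z hcon)
  have hea : a ≠ e := by rintro rfl; exact hez (by rw [hz.pal]; simp)
  have heb : b ≠ e := by rintro rfl; exact hez (by rw [hz.pal]; simp)
  exact far_one h hz hv (run_far h hv hJ he (hmn v h4) (hab (by simp)) hea)
    (run_far h hv hJ he (hmn v h4) (hab (by simp)) heb)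

/-- a colour with an open point on the circle is not carried by the centre -/
theorem not_pal_of_open (h : Irr U T) {q : ℂ} (hq : dist q z = 1) (he : q ∈ U e) :
    e ∉ Pal U z := fun hcon => h.mx.free e q he z hcon hq

end Vale.Agent.P032.H361
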