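import Vale.Agent.P032X.H510.V4s
import Vale.Agent.P032X.H642.Run
import Vale.Agent.P032X.S5.H843.Core7

/-!
# P032: the starts of the two-pair block

`starts`: frame `Irr U T`, `Mn U T`, at most four colours everywhere, some two-pair point.  Then

* (start 3) some two-pair point has a gap-bad point (four colours, not in the closure of the exact
  arcs, not `Hx`) or a star on its circle, or
* no two-pair point has a gap-bad point or a star (`NB`), and there are a two-pair point `z` and a
  four coloured point `v` in the closure of its exact `ab`-arcs such that `v` has only one exact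
  pair (start 1), or `v` is a two-pair point and `z` is in the closure of its exact `pq`-arcs
  (start 2, mutual ends).

`gap_types`: a gap-bad point contains both missing colours, and has a crossing palette or is a real
`e|f` switch.
-/

open Set Filter Topology Metric

noncomputable section

namespace Vale.Agent.P032.H361

open Vale.Agent.P032.Six Vale.Agent.P032.S5.H767 Vale.Agent.P032.S5.H358 Vale.Agent.P032.S5.H349
open Vale.Agent.P032.H510

variable {U : Fin 6 → Set ℂ} {T : ℂ → Set (Fin 6)} {z v : ℂ} {a b c d e f : Fin 6}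

/-- a gap-bad point of the circle of `z` -/
structure GapB (T : ℂ → Set (Fin 6)) (z v : ℂ) (a b c d e f : Fin 6) : Prop where
  dv : dist v z = 1
  four : (T v).ncard = 4
  nab : v ∉ closure (Ex T z {a, b})
  ncd : v ∉ closure (Ex T z {c, d})
  hab : ¬ Hx T z a b e f v
  hcd : ¬ Hx T z c d e f v

/-- a star of harmless points on the circle of `z` -/
structure StarH (T : ℂ → Set (Fin 6)) (z v v' : ℂ) (a b c d e f : Fin 6) : Prop where
  dv : dist v z = 1
  dv' : dist v' z = 1
  unit : dist v v' = 1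
  hab : Hx T z a b e f v
  hcd : Hx T z c d e f v'

/-- no gap-bad points and no stars on the circles of all two-pair points -/
def NB (T : ℂ → Set (Fin 6)) : Prop :=
  ∀ z a b c d e f, DPt T z a b c d → [a, b, c, d, e, f].Nodup →
    (∀ v, ¬ GapB T z v a b c d e f) ∧ ∀ v v', ¬ StarH T z v v' a b c d e f

theorem GapB.swapAC (g : GapB T z v a b c d e f) : GapB T z v c d a b e f :=
  ⟨g.dv, g.four, g.ncd, g.nab, g.hcd, g.hab⟩

theorem perm6 (nd : [a, b, c, d, e, f].Nodup) : [c, d, a, b, e, f].Nodup := by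
  simp only [List.nodup_cons, List.mem_cons, List.not_mem_nil, or_false, not_or,
    not_false_eq_true, List.nodup_nil, and_true] at nd ⊢
  obtain ⟨⟨ab, ac, ad, ae, af⟩, ⟨bc, bd, be, bf⟩, ⟨cd, ce, cf⟩, ⟨de, df⟩, ef⟩ := nd
  exact ⟨⟨cd, Ne.symm ac, Ne.symm bc, ce, cf⟩, ⟨Ne.symm ad, Ne.symm bd, de, df⟩, ⟨ab, ae, af⟩,
    ⟨be, bf⟩, ef⟩

/-- a four coloured point with no gap-bad points around: end or harmless -/
theorem NB.cases (hN : NB T) (hz : DPt T z a b c d) (nd : [a, b, c, d, e, f].Nodup)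
    (hv : dist v z = 1) (h4 : (T v).ncard = 4) :
    v ∈ closure (Ex T z {a, b}) ∨ v ∈ closure (Ex T z {c, d}) ∨ Hx T z a b e f v ∨
      Hx T z c d e f v := by
  by_contra hcon
  push Not at hcon
  exact (hN z a b c d e f hz nd).1 v ⟨hv, h4, hcon.1, hcon.2.1, hcon.2.2.1, hcon.2.2.2⟩

/-- a point which matters is an end when there are no gap-bad points -/
theorem NB.end_of_bad (hN : NB T) (hz : DPt T z a b c d) (nd : [a, b, c, d, e, f].Nodup)
    (hv : Bad T z v a b c d e f) :
    v ∈ closure (Ex T z {a, b}) ∨ v ∈ closure (Ex T z {c, d}) := by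
  obtain ⟨h1, h2, h3⟩ := hv
  have key : ∀ {p q e f : Fin 6}, BadP T z v p q e f → Hx T z p q e f v → False := by
    rintro p q e f ⟨k1, k2 | ⟨P, hP, hPne⟩⟩ hx
    · exact hx.2.2 k2
    · obtain ⟨hPv, hP2, w, hw, hJ⟩ := hP
      have hTw : T w = P := hJ.self_of_nhdsWithin hw
      have h5 := hx.2.1 w hw (by rw [hTw]; exact hPv)
      rw [hTw] at h5
      have hpq : p ≠ q := by
        rintro rfl
        have h6 : (T v).ncard ≤ 3 := by
          rw [k1, Set.insert_eq_of_mem (Set.mem_insert _ _)]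
          exact Set.ncard_insert_le _ _ |>.trans (by
            have := Set.ncard_insert_le e {f}; rw [Set.ncard_singleton] at this; omega)
        omega
      exact hPne (Set.eq_of_subset_of_ncard_le h5 (by rw [hP2, Set.ncard_pair hpq])
        (Set.toFinite _)).symm
  rcases hN.cases hz nd h1 h2 with h4 | h4 | h4 | h4
  · exact Or.inl h4
  · exact Or.inr h4
  · exfalso
    simp only [List.nodup_cons, List.mem_cons, List.not_mem_nil, or_false, not_or,
      not_false_eq_true, List.nodup_nil, and_true] at nd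
    obtain ⟨⟨ab, ac, ad, ae, af⟩, ⟨bc, bd, be, bf⟩, ⟨cd, ce, cf⟩, ⟨de, df⟩, ef⟩ := nd
    rcases h3 with h3 | h3 | h3
    · exact h3.1 h4.1
    · exact key h3 h4
    · have h5 : a ∈ T v := by rw [h4.1]; simp
      rw [h3.1] at h5
      simp [ac, ad, ae, af] at h5
  · exfalso
    simp only [List.nodup_cons, List.mem_cons, List.not_mem_nil, or_false, not_or,
      not_false_eq_true, List.nodup_nil, and_true] at nd
    obtain ⟨⟨ab, ac, ad, ae, af⟩, ⟨bc, bd, be, bf⟩, ⟨cd, ce, cf⟩, ⟨de, df⟩, ef⟩ := nd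
    rcases h3 with h3 | h3 | h3
    · exact h3.2 h4.1
    · have h5 : a ∈ T v := by rw [h3.1]; simp
      rw [h4.1] at h5
      simp [ac, ad, ae, af] at h5
    · exact key h3 h4

/-- two different exact pairs of a four coloured point: a two-pair point -/
theorem dpt_of_two (h : Irr U T) (hmn : Mn U T) (h4 : (T v).ncard = 4) {P Q : Set (Fin 6)}
    (hP : P ∈ MM T v) (hQ : Q ∈ MM T v) (hne : P ≠ Q) : ∃ p q r s, DPt T v p q r s := by
  obtain ⟨hPz, hP2, p, hp, hpJ⟩ := hP
  obtain ⟨hQz, hQ2, q, hq, hqJ⟩ := hQ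
  have hPp : T p = P := hpJ.self_of_nhdsWithin hp
  have hQq : T q = Q := hqJ.self_of_nhdsWithin hq
  rcases h.pairs_disjoint hmn h4 hp hq (by rw [hPp]; exact hPz) (by rw [hQq]; exact hQz)
    (by rw [hPp]; exact hP2) (by rw [hQq]; exact hQ2) with heq | hdis
  · exact absurd (by rw [← hPp, ← hQq, heq]) hne
  · rw [hPp, hQq] at hdis
    have hU : P ∪ Q = T v := Set.eq_of_subset_of_ncard_le (union_subset hPz hQz) (by
      rw [Set.ncard_union_eq hdis (Set.toFinite _) (Set.toFinite _), hP2, hQ2, h4])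
      (Set.toFinite _)
    obtain ⟨a, b, hab, rfl⟩ := Set.ncard_eq_two.1 hP2
    obtain ⟨c, d, hcd, rfl⟩ := Set.ncard_eq_two.1 hQ2
    have hd := Set.disjoint_left.1 hdis
    refine ⟨a, b, c, d, ⟨?_, ?_, ?_, ?_, ?_, hab, hcd, ⟨p, hp, hpJ⟩, ⟨q, hq, hqJ⟩⟩⟩
    · rw [← hU]; ext i; simp only [mem_union, mem_insert_iff, mem_singleton_iff]; tauto
    · rintro rfl; exact hd (a := a) (by simp) (by simp)
    · rintro rfl; exact hd (a := a) (by simp) (by simp)
    · rintro rfl; exact hd (a := b) (by simp) (by simp)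
    · rintro rfl; exact hd (a := b) (by simp) (by simp)

/-- a two-pair point is not harmless for another one -/
theorem not_hx_of_dpt (hz : DPt T z a b c d) {p q e' f' : Fin 6} : ¬ Hx T v p q e' f' z := by
  rintro ⟨-, h2, -⟩
  obtain ⟨x, hx, hxJ⟩ := hz.arc1
  obtain ⟨y, hy, hyJ⟩ := hz.arc2
  have hxT : T x = {a, b} := hxJ.self_of_nhdsWithin hx
  have hyT : T y = {c, d} := hyJ.self_of_nhdsWithin hy
  have h3 := h2 x hx (by rw [hxT, hz.pal]; intro i; simp; tauto)
  have h4 := h2 y hy (by rw [hyT, hz.pal]; intro i; simp; tauto)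
  rw [hxT] at h3
  rw [hyT] at h4
  have h5 := h3 (show p ∈ ({p, q} : Set (Fin 6)) by simp)
  have h6 := h4 (show p ∈ ({p, q} : Set (Fin 6)) by simp)
  simp only [mem_insert_iff, mem_singleton_iff] at h5 h6
  rcases h5 with rfl | rfl <;> rcases h6 with h6 | h6
  · exact hz.ac h6
  · exact hz.ad h6
  · exact hz.bc h6
  · exact hz.bd h6

theorem DPt.card (hz : DPt T z a b c d) : (T z).ncard = 4 := by
  rw [hz.pal]
  rw [Set.ncard_insert_of_notMem (by simp [hz.ab, hz.ac, hz.ad]),
    Set.ncard_insert_of_notMem (by simp [hz.bc, hz.bd]), Set.ncard_pair hz.cd]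

/-- **The starts.** -/
theorem starts (h : Irr U T) (hmn : Mn U T) (h4 : ∀ z, (T z).ncard ≤ 4)
    (hD : ∃ z a b c d, DPt T z a b c d) :
    (∃ z a b c d e f, DPt T z a b c d ∧ [a, b, c, d, e, f].Nodup ∧
      ((∃ v, GapB T z v a b c d e f) ∨ ∃ v v', StarH T z v v' a b c d e f)) ∨
    (NB T ∧ ∃ z a b c d e f v, DPt T z a b c d ∧ [a, b, c, d, e, f].Nodup ∧ dist v z = 1 ∧
      (T v).ncard = 4 ∧ v ∈ closure (Ex T z {a, b}) ∧
      ((∀ P ∈ MM T v, ∀ Q ∈ MM T v, P = Q) ∨
        ∃ p q r s, DPt T v p q r s ∧ z ∈ closure (Ex T v {p, q}))) := by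
  by_cases hN : NB T
  · refine Or.inr ⟨hN, ?_⟩
    obtain ⟨z, a, b, c, d, e, f, hz, nd, hv⟩ := exists_bad h h4 hD
    -- an end
    have hE : ∃ v, dist v z = 1 ∧ (T v).ncard = 4 ∧
        (v ∈ closure (Ex T z {a, b}) ∨ v ∈ closure (Ex T z {c, d})) := by
      rcases hv with ⟨v, hv⟩ | ⟨v, v', h1, h2, h3, h5, h6⟩
      · exact ⟨v, hv.1, hv.2.1, hN.end_of_bad hz nd hv⟩
      · have nd' := nd
        simp only [List.nodup_cons, List.mem_cons, List.not_mem_nil, or_false, not_or,
          not_false_eq_true, List.nodup_nil, and_true] at nd'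
        obtain ⟨⟨ab, ac, ad, ae, af⟩, ⟨bc, bd, be, bf⟩, ⟨cd, ce, cf⟩, ⟨de, df⟩, ef⟩ := nd'
        have c1 : (T v).ncard = 4 := by
          rw [h5, Set.ncard_insert_of_notMem (by simp [ab, ae, af]),
            Set.ncard_insert_of_notMem (by simp [be, bf]), Set.ncard_pair ef]
        have c2 : (T v').ncard = 4 := by
          rw [h6, Set.ncard_insert_of_notMem (by simp [cd, ce, cf]),
            Set.ncard_insert_of_notMem (by simp [de, df]), Set.ncard_pair ef]
        rcases hN.cases hz nd h1 c1 with k | k | k | k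
        · exact ⟨v, h1, c1, Or.inl k⟩
        · exact ⟨v, h1, c1, Or.inr k⟩
        · rcases hN.cases hz nd h2 c2 with l | l | l | l
          · exact ⟨v', h2, c2, Or.inl l⟩
          · exact ⟨v', h2, c2, Or.inr l⟩
          · have h7 : c ∈ T v' := by rw [h6]; simp
            rw [l.1] at h7
            simp only [mem_insert_iff, mem_singleton_iff, ce, cf, or_false] at h7
            rcases h7 with h7 | h7
            · exact absurd h7.symm ac
            · exact absurd h7.symm bc
          · exact absurd ⟨h1, h2, h3, k, l⟩ ((hN z a b c d e f hz nd).2 v v')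
        · have h7 : a ∈ T v := by rw [h5]; simp
          rw [k.1] at h7
          simp [ac, ad, ae, af] at h7
    -- the second half, for an end of the `ab`-arcs
    have key : ∀ {a b c d e f : Fin 6} {v : ℂ}, DPt T z a b c d → [a, b, c, d, e, f].Nodup →
        dist v z = 1 → (T v).ncard = 4 → v ∈ closure (Ex T z {a, b}) →
        ∃ z a b c d e f v, DPt T z a b c d ∧ [a, b, c, d, e, f].Nodup ∧ dist v z = 1 ∧
          (T v).ncard = 4 ∧ v ∈ closure (Ex T z {a, b}) ∧
          ((∀ P ∈ MM T v, ∀ Q ∈ MM T v, P = Q) ∨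
            ∃ p q r s, DPt T v p q r s ∧ z ∈ closure (Ex T v {p, q})) := by
      intro a b c d e f v hz nd hv hv4 hvE
      refine ⟨z, a, b, c, d, e, f, v, hz, nd, hv, hv4, hvE, ?_⟩
      by_cases hu : ∀ P ∈ MM T v, ∀ Q ∈ MM T v, P = Q
      · exact Or.inl hu
      right
      push Not at hu
      obtain ⟨P, hP, Q, hQ, hne⟩ := hu
      obtain ⟨p, q, r, s, hv'⟩ := dpt_of_two h hmn hv4 hP hQ hne
      obtain ⟨e', f', nd'⟩ := hv'.exists_nodup
      rcases hN.cases hv' nd' (by rw [dist_comm]; exact hv) (DPt.card hz) with k | k | k | k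
      · exact ⟨p, q, r, s, hv', k⟩
      · exact ⟨r, s, p, q, hv'.swap, k⟩
      · exact absurd k (not_hx_of_dpt hz)
      · exact absurd k (not_hx_of_dpt hz)
    obtain ⟨v, h1, h2, h3 | h3⟩ := hE
    · exact key hz nd h1 h2 h3
    · exact key hz.swap (perm6 nd) h1 h2 h3
  · left
    unfold NB at hN
    push Not at hN
    obtain ⟨z, a, b, c, d, e, f, hz, nd, h1⟩ := hN
    refine ⟨z, a, b, c, d, e, f, hz, nd, ?_⟩
    by_cases h2 : ∀ v, ¬ GapB T z v a b c d e f
    · exact Or.inr (h1 h2)
    · push Not at h2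
      exact Or.inl h2

end Vale.Agent.P032.H361
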